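import Vale.Agent.P237.BL

/-!
The geometric Brascamp-Lieb inequality for integrable functions, and the entropy inequality for
the uniform distribution on a set.
-/

open MeasureTheory Set Filter Real
open scoped RealInnerProductSpace ENNReal Topology

namespace Vale.Agent.P237.Every

open Vale.Agent.P047.Disproof.BL (g g_pos continuous_g integrable_g integral_g)

variable {n : ℕ} {ι : Type*} [Fintype ι] {u : ι → EuclideanSpace ℝ (Fin n)} {c : ι → ℝ}

/-- A functional of norm one pulls null sets back to null sets. -/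
theorem ae_comp_inner {e : EuclideanSpace ℝ (Fin n)} (he : ‖e‖ = 1) {p : ℝ → Prop}
    (hp : ∀ᵐ t, p t) : ∀ᵐ x : EuclideanSpace ℝ (Fin n), p ⟪e, x⟫ := by
  set L : EuclideanSpace ℝ (Fin n) →ₗ[ℝ] ℝ := (innerSL ℝ e).toLinearMap with hL
  have hsurj : Function.Surjective L := fun t => ⟨t • e, by
    simp [hL, inner_smul_right, he]⟩
  obtain ⟨a, -, ha⟩ := L.exists_map_addHaar_eq_smul_addHaar
    (volume : Measure (EuclideanSpace ℝ (Fin n))) (volume : Measure ℝ) hsurj
  have h : ∀ᵐ t ∂(volume.map L), p t := by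
    rw [ha]; exact Measure.ae_smul_measure hp a
  exact ae_of_ae_map (innerSL ℝ e).continuous.aemeasurable h

/-- Geometric Brascamp-Lieb for integrable densities, without continuity. -/
theorem lintegral_prod_rpow_le_one_of_integrable (hc : ∀ i, 0 ≤ c i) (hu : ∀ i, ‖u i‖ = 1)
    (hI : ∀ x, ∑ i, (c i * ⟪u i, x⟫) • u i = x) {f : ι → ℝ → ℝ} (hi : ∀ i, Integrable (f i))
    (hf0 : ∀ i t, 0 ≤ f i t) (hone : ∀ i, ∫ t, f i t ≤ 1) :
    ∫⁻ x : EuclideanSpace ℝ (Fin n), ENNReal.ofReal (∏ i, f i ⟪u i, x⟫ ^ c i) ≤ 1 := by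
  have hgeo : ∀ k : ℕ, (0 : ℝ) < (1 / 2) ^ k := fun k => by positivity
  choose φ _ hφle hφc hφi using fun (i : ι) (k : ℕ) =>
    (hi i).exists_hasCompactSupport_integral_sub_le (hgeo k)
  set F : ι → ℕ → ℝ → ℝ := fun i k t => |φ i k t| + (1 / 2) ^ k * g t with hF
  have hFc : ∀ i k, Continuous (F i k) := fun i k =>
    (hφc i k).abs.add (continuous_g.const_mul _)
  have hFp : ∀ i k t, 0 < F i k t := fun i k t =>
    add_pos_of_nonneg_of_pos (abs_nonneg _) (mul_pos (hgeo k) (g_pos t))
  have hFi : ∀ i k, Integrable (F i k) := fun i k =>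
    (hφi i k).abs.add (integrable_g.const_mul _)
  have hFd : ∀ i k, ∫ t, |F i k t - f i t| ≤ 2 * (1 / 2) ^ k := fun i k => by
    have hd : Integrable fun t => ‖f i t - φ i k t‖ := ((hi i).sub (hφi i k)).norm
    calc ∫ t, |F i k t - f i t| ≤ ∫ t, (‖f i t - φ i k t‖ + (1 / 2) ^ k * g t) := by
          refine integral_mono ((hFi i k).sub (hi i)).abs (hd.add (integrable_g.const_mul _))
            fun t => ?_
          have h1 : |(|φ i k t|) - f i t| ≤ ‖f i t - φ i k t‖ := by
            conv_lhs => rw [← abs_of_nonneg (hf0 i t)]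
            rw [Real.norm_eq_abs, abs_sub_comm (f i t)]
            exact abs_abs_sub_abs_le_abs_sub _ _
          calc |F i k t - f i t| = |(|φ i k t| - f i t) + (1 / 2) ^ k * g t| := by
                simp only [hF]; ring_nf
            _ ≤ _ := (abs_add_le _ _).trans (add_le_add h1
                (abs_of_pos (mul_pos (hgeo k) (g_pos t))).le)
      _ ≤ 2 * (1 / 2) ^ k := by
          rw [integral_add hd (integrable_g.const_mul _), integral_const_mul, integral_g]
          linarith [hφle i k]
  have hlim : ∀ i, ∀ᵐ t, Tendsto (fun k => F i k t) atTop (𝓝 (f i t)) := fun i => by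
    have hm : ∀ k, AEMeasurable (fun t => ENNReal.ofReal |F i k t - f i t|) volume := fun k =>
      (((hFc i k).aemeasurable.sub (hi i).aemeasurable).abs).ennreal_ofReal
    have hfin : ∫⁻ t, ∑' k, ENNReal.ofReal |F i k t - f i t| ≠ ∞ := by
      rw [lintegral_tsum hm]
      refine ne_top_of_le_ne_top ?_ (ENNReal.tsum_le_tsum fun k =>
        (ofReal_integral_eq_lintegral_ofReal ((hFi i k).sub (hi i)).abs
          (Eventually.of_forall fun t => abs_nonneg _)).ge.trans (ENNReal.ofReal_le_ofReal (hFd i k)))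
      rw [← ENNReal.ofReal_tsum_of_nonneg (fun k => by positivity)
        ((summable_geometric_of_lt_one (by norm_num) (by norm_num)).mul_left 2)]
      exact ENNReal.ofReal_ne_top
    filter_upwards [ae_lt_top' (AEMeasurable.tsum hm) hfin] with t ht
    rw [tendsto_iff_dist_tendsto_zero]
    have := ENNReal.tendsto_atTop_zero_of_tsum_ne_top ht.ne
    have h2 := (ENNReal.tendsto_toReal ENNReal.zero_ne_top).comp this
    simp only [ENNReal.toReal_zero] at h2
    refine h2.congr fun k => ?_
    rw [Function.comp_apply, ENNReal.toReal_ofReal (abs_nonneg _), Real.dist_eq]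
  set P : ℕ → EuclideanSpace ℝ (Fin n) → ℝ≥0∞ :=
    fun k x => ENNReal.ofReal (∏ i, F i k ⟪u i, x⟫ ^ c i) with hP
  have hPlim : ∀ᵐ x, Tendsto (fun k => P k x) atTop
      (𝓝 (ENNReal.ofReal (∏ i, f i ⟪u i, x⟫ ^ c i))) := by
    have h : ∀ᵐ x : EuclideanSpace ℝ (Fin n), ∀ i, Tendsto (fun k => F i k ⟪u i, x⟫) atTop
        (𝓝 (f i ⟪u i, x⟫)) :=
      ae_all_iff.2 fun i => ae_comp_inner (hu i) (hlim i)
    filter_upwards [h] with x hx
    exact (ENNReal.continuous_ofReal.tendsto _).comp
      (tendsto_finsetProd _ fun i _ => (hx i).rpow_const (.inr (hc i)))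
  have hPm : ∀ k, Measurable (P k) := fun k =>
    (BL.continuous_prod_rpow hc fun i => hFc i k).measurable.ennreal_ofReal
  have hPle : ∀ k, ∫⁻ x, P k x ≤ ENNReal.ofReal ((1 + 2 * (1 / 2) ^ k) ^ ∑ i, c i) := by
    intro k
    obtain ⟨hint, hle⟩ := BL.integral_prod_rpow_le hc hu hI (fun i => hFc i k)
      (fun i t => hFp i k t) (fun i => hFi i k)
    rw [← ofReal_integral_eq_lintegral_ofReal hint (Eventually.of_forall fun x =>
      Finset.prod_nonneg fun i _ => Real.rpow_nonneg (hFp i k _).le _)]
    refine ENNReal.ofReal_le_ofReal (hle.trans ?_)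
    rw [Real.rpow_sum_of_pos (by positivity)]
    refine Finset.prod_le_prod (fun i _ => Real.rpow_nonneg
      (integral_nonneg fun t => (hFp i k t).le) _) fun i _ => Real.rpow_le_rpow
        (integral_nonneg fun t => (hFp i k t).le) ?_ (hc i)
    have hd : Integrable fun t => |F i k t - f i t| := ((hFi i k).sub (hi i)).abs
    have h1 : ∫ t, F i k t ≤ ∫ t, (f i t + |F i k t - f i t|) :=
      integral_mono (hFi i k) ((hi i).add hd)
        fun t => by linarith [le_abs_self (F i k t - f i t)]
    rw [integral_add (hi i) hd] at h1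
    linarith [hone i, hFd i k]
  have htop : Tendsto (fun k : ℕ => ENNReal.ofReal ((1 + 2 * (1 / 2 : ℝ) ^ k) ^ ∑ i, c i)) atTop
      (𝓝 1) := by
    rw [← ENNReal.ofReal_one]
    refine (ENNReal.continuous_ofReal.tendsto _).comp ?_
    have h := ((tendsto_pow_atTop_nhds_zero_of_lt_one (show (0:ℝ) ≤ 1 / 2 by norm_num)
      (by norm_num)).const_mul 2).const_add 1
    simp only [mul_zero, add_zero] at h
    simpa using h.rpow_const (p := ∑ i, c i) (.inl one_ne_zero)
  calc ∫⁻ x, ENNReal.ofReal (∏ i, f i ⟪u i, x⟫ ^ c i)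
      = ∫⁻ x, liminf (fun k => P k x) atTop := by
        refine lintegral_congr_ae ?_
        filter_upwards [hPlim] with x hx using hx.liminf_eq.symm
    _ ≤ liminf (fun k => ∫⁻ x, P k x) atTop := lintegral_liminf_le hPm
    _ ≤ liminf (fun k : ℕ => ENNReal.ofReal ((1 + 2 * (1 / 2 : ℝ) ^ k) ^ ∑ i, c i)) atTop :=
        liminf_le_liminf (Eventually.of_forall hPle)
    _ = 1 := htop.liminf_eq

/-- Entropy of the uniform distribution on a set against its marginals. -/
theorem log_volume_le (hc : ∀ i, 0 ≤ c i) (hu : ∀ i, ‖u i‖ = 1)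
    (hI : ∀ x, ∑ i, (c i * ⟪u i, x⟫) • u i = x) {Z : Set (EuclideanSpace ℝ (Fin n))}
    (hZ : MeasurableSet Z) {V : ℝ} (hV : 0 < V) (hZv : volume Z = ENNReal.ofReal V)
    {f : ι → ℝ → ℝ} (hfm : ∀ i, Measurable (f i)) (hf0 : ∀ i t, 0 ≤ f i t)
    (hfl : ∀ i, Integrable fun t => f i t * Real.log (f i t))
    (hmap : ∀ i, (volume.restrict Z).map (fun x => ⟪u i, x⟫) =
      volume.withDensity fun t => ENNReal.ofReal (V * f i t)) :
    Real.log V ≤ ∑ i, c i * -∫ t, f i t * Real.log (f i t) := by
  have hL : ∀ i, Measurable fun x : EuclideanSpace ℝ (Fin n) => ⟪u i, x⟫ := fun i =>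
    (continuous_const.inner continuous_id).measurable
  haveI : IsFiniteMeasure (volume.restrict Z) := ⟨by
    rw [Measure.restrict_apply_univ, hZv]; exact ENNReal.ofReal_lt_top⟩
  have hVf : ∀ i, AEMeasurable (fun t => ENNReal.ofReal (V * f i t)) volume := fun i =>
    ((hfm i).const_mul V).ennreal_ofReal.aemeasurable
  have hmass : ∀ i, ∫⁻ t, ENNReal.ofReal (V * f i t) = ENNReal.ofReal V := fun i => by
    have h := congrArg (fun μ : Measure ℝ => μ univ) (hmap i)
    rw [Measure.map_apply (hL i) MeasurableSet.univ, preimage_univ, Measure.restrict_apply_univ,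
      withDensity_apply _ MeasurableSet.univ, setLIntegral_univ, hZv] at h
    exact h.symm
  have hfi : ∀ i, Integrable (f i) := fun i => by
    have h : Integrable fun t => V * f i t := ⟨((hfm i).const_mul V).aestronglyMeasurable, by
      rw [hasFiniteIntegral_iff_ofReal (Eventually.of_forall fun t => mul_nonneg hV.le (hf0 i t)),
        hmass i]
      exact ENNReal.ofReal_lt_top⟩
    simpa [← mul_assoc, inv_mul_cancel₀ hV.ne'] using h.const_mul V⁻¹
  have hone : ∀ i, ∫ t, f i t ≤ 1 := fun i => by
    have h : ENNReal.ofReal (∫ t, V * f i t) = ENNReal.ofReal V := by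
      rw [ofReal_integral_eq_lintegral_ofReal ((hfi i).const_mul V)
        (Eventually.of_forall fun t => mul_nonneg hV.le (hf0 i t)), hmass i]
    rw [ENNReal.ofReal_eq_ofReal_iff (integral_nonneg fun t => mul_nonneg hV.le (hf0 i t)) hV.le,
      integral_const_mul] at h
    nlinarith
  -- the logarithms along the set
  have hlog : ∀ i, Integrable (fun x => Real.log (f i ⟪u i, x⟫)) (volume.restrict Z) ∧
      ∫ x in Z, Real.log (f i ⟪u i, x⟫) = V * ∫ t, f i t * Real.log (f i t) := fun i => by
    have hφ : Measurable fun t => Real.log (f i t) := (hfm i).log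
    have e : ∀ t, (ENNReal.ofReal (V * f i t)).toReal • Real.log (f i t) =
        V * (f i t * Real.log (f i t)) := fun t => by
      rw [ENNReal.toReal_ofReal (mul_nonneg hV.le (hf0 i t)), smul_eq_mul, mul_assoc]
    have h1 : Integrable (fun t => Real.log (f i t)) ((volume.restrict Z).map fun x => ⟪u i, x⟫) := by
      rw [hmap i, integrable_withDensity_iff_integrable_smul₀' (hVf i)
        (Eventually.of_forall fun t => ENNReal.ofReal_lt_top)]
      simpa only [e] using (hfl i).const_mul V
    refine ⟨(integrable_map_measure hφ.aestronglyMeasurable (hL i).aemeasurable).1 h1, ?_⟩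
    rw [← integral_map (hL i).aemeasurable hφ.aestronglyMeasurable, hmap i,
      integral_withDensity_eq_integral_toReal_smul₀ (hVf i)
        (Eventually.of_forall fun t => ENNReal.ofReal_lt_top)]
    simp only [e, integral_const_mul]
  have hpos : ∀ᵐ x ∂volume.restrict Z, ∀ i, 0 < f i ⟪u i, x⟫ := by
    rw [ae_all_iff]
    intro i
    have h : ∀ᵐ t ∂((volume.restrict Z).map fun x => ⟪u i, x⟫), 0 < f i t := by
      rw [hmap i, ae_withDensity_iff' (hVf i)]
      refine Eventually.of_forall fun t ht => ?_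
      rcases (hf0 i t).lt_or_eq with h | h
      · exact h
      · exact absurd (by rw [← h, mul_zero, ENNReal.ofReal_zero]) ht
    exact ae_of_ae_map (hL i).aemeasurable h
  set L : EuclideanSpace ℝ (Fin n) → ℝ := fun x => ∑ i, c i * Real.log (f i ⟪u i, x⟫) with hLd
  set q : EuclideanSpace ℝ (Fin n) → ℝ := fun x => ∏ i, f i ⟪u i, x⟫ ^ c i with hq
  have hq0 : ∀ x, 0 ≤ q x := fun x => Finset.prod_nonneg fun i _ => Real.rpow_nonneg (hf0 i _) _
  have hq1 := lintegral_prod_rpow_le_one_of_integrable hc hu hI hfi hf0 hone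
  have hqm : Measurable q :=
    Finset.measurable_prod _ fun i _ => ((hfm i).comp (hL i)).pow_const _
  have hqi : Integrable q := ⟨hqm.aestronglyMeasurable, by
    rw [hasFiniteIntegral_iff_ofReal (Eventually.of_forall hq0)]
    exact hq1.trans_lt ENNReal.one_lt_top⟩
  have hq1' : ∫ x in Z, q x ≤ 1 := by
    refine (setIntegral_le_integral hqi (Eventually.of_forall hq0)).trans ?_
    rw [← ENNReal.ofReal_le_one, ofReal_integral_eq_lintegral_ofReal hqi (Eventually.of_forall hq0)]
    exact hq1
  have hLi : Integrable L (volume.restrict Z) :=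
    integrable_finsetSum _ fun i _ => (hlog i).1.const_mul _
  have key : ∫ x in Z, L x ≤ ∫ x in Z, (V * q x - (1 + Real.log V)) := by
    refine integral_mono_ae hLi ((hqi.restrict.const_mul V).sub (integrable_const _)) ?_
    filter_upwards [hpos] with x hx
    have hqe : q x = exp (L x) := by
      simp only [hq, hLd]
      rw [Real.exp_sum]
      exact Finset.prod_congr rfl fun i _ => by rw [Real.rpow_def_of_pos (hx i), mul_comm]
    have h := Real.add_one_le_exp (L x + Real.log V)
    rw [exp_add, exp_log hV, ← hqe] at h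
    linarith
  rw [integral_sub (hqi.restrict.const_mul V) (integrable_const _), integral_const_mul,
    integral_const, measureReal_restrict_apply_univ, measureReal_def, hZv,
    ENNReal.toReal_ofReal hV.le, smul_eq_mul] at key
  rw [hLd, integral_finsetSum _ fun i _ => (hlog i).1.const_mul _] at key
  simp only [integral_const_mul, (hlog _).2] at key
  have e : ∑ i, c i * (V * ∫ t, f i t * Real.log (f i t)) =
      V * ∑ i, c i * ∫ t, f i t * Real.log (f i t) := by
    rw [Finset.mul_sum]; exact Finset.sum_congr rfl fun i _ => by ring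
  rw [e] at key
  have h2 : V * ∑ i, c i * ∫ t, f i t * Real.log (f i t) ≤ V * -Real.log V := by
    nlinarith [mul_le_mul_of_nonneg_left hq1' hV.le]
  have := le_of_mul_le_mul_left h2 hV
  simp only [mul_neg, Finset.sum_neg_distrib]
  linarith

end Vale.Agent.P237.Every
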