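import Vale.Agent.P237.Gen.Zonotope
import Vale.Agent.P237.Gen.Approx
import Vale.Agent.P237.Gen.Mixed
import Vale.Agent.P237.Gen.Reduce
import Vale.Agent.P237.AllN.Slice

/-!
A bound for zonotopes gives the same bound for all compact convex sets.
-/

open MeasureTheory Set Pointwise

namespace Vale.Agent.P237.Every

open Vale.Agent.P237

variable {n : ℕ}

theorem piSet_le_of_zon (hn : n ≠ 0) {c : ℝ} (hc : 0 ≤ c)
    (hz : ∀ (ι : Type) [Fintype ι] (s : ι → Fin (n + 1) → ℝ), 0 < volume.real (Gen.zon s) →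
      c * volume.real (Gen.zon s) ^ n ≤ volume.real (Gen.zon (Gen.piGen s)))
    {S : Set (Fin (n + 1) → ℝ)} (hS : IsCompact S) (hSc : Convex ℝ S) :
    c * volume.real S ^ n ≤ volume.real (AllN.piSet S) := by
  have hnn : 0 ≤ volume.real (AllN.piSet S) := measureReal_nonneg
  rcases eq_or_ne (volume.real S) 0 with h0 | h0
  · rw [h0, zero_pow hn, mul_zero]; exact hnn
  obtain ⟨x0, hx0⟩ : (interior S).Nonempty := by
    rw [nonempty_iff_ne_empty]
    intro he
    have hf := hSc.addHaar_frontier (volume : Measure (Fin (n + 1) → ℝ))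
    rw [hS.isClosed.frontier_eq, he, sdiff_empty] at hf
    exact h0 (by simp [measureReal_def, hf])
  set K := -x0 +ᵥ S with hKdef
  have hK : Gen.Body K := by
    refine ⟨hSc.vadd _, hS.vadd _, ?_⟩
    rw [hKdef, interior_vadd]
    exact ⟨x0, hx0, by simp⟩
  have hvol : ∀ A : Set (Fin (n + 1) → ℝ), volume.real (-x0 +ᵥ A) = volume.real A := fun A => by
    rw [measureReal_def, measure_vadd, measureReal_def]
  have hseg : ∀ u : Fin (n + 1) → ℝ, K + Gen.seg u = -x0 +ᵥ (S + Gen.seg u) := fun u => by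
    rw [hKdef, vadd_add_assoc]
  have hpA : ∀ u, Gen.pA K u = AllN.pA S u := fun u => by
    rw [Gen.pA, hseg, hvol, hKdef, hvol]
    rfl
  have hpi : Gen.piBody K = AllN.piSet S := by
    ext x
    simp only [Gen.piBody, AllN.piSet, hpA]
  have h := Gen.body_of_zonotope hz hK
  rw [hpi, hKdef, hvol] at h
  exact h

end Vale.Agent.P237.Every
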