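import Vale.Agent.P237.Every.Defs

/-!
The constants of the bound in every dimension compared with Petty's conjectured ones.
-/

open MeasureTheory Real Set

namespace Vale.Agent.P237.Every

noncomputable section

/-- The constant in dimension `k + 2`: `4` times `∏ κ_m ^ (1 / m)` over `3 ≤ m ≤ k + 2`. -/
def cst : ℕ → ℝ
  | 0 => 4
  | k + 1 => cst k * kappa (k + 3) ^ (((k + 3 : ℕ) : ℝ)⁻¹)

theorem kappa_eq (m : ℕ) : kappa m = √π ^ m / Gamma ((m : ℝ) / 2 + 1) := by
  cases m with
  | zero =>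
    have h : (Metric.ball (0 : EuclideanSpace ℝ (Fin 0)) 1) =
        WithLp.toLp 2 '' (univ : Set (Fin 0 → ℝ)) := by
      ext x
      simp [Subsingleton.elim x 0]
    rw [kappa, h, measureReal_def, ← (PiLp.volume_preserving_toLp (Fin 0)).measure_preimage
      (by simp [← h]; exact measurableSet_ball.nullMeasurableSet),
      preimage_image_eq _ (WithLp.toLp_injective 2)]
    simp [volume_pi]
  | succ m =>
    rw [kappa, measureReal_def, EuclideanSpace.volume_ball, ENNReal.toReal_mul,
      ENNReal.toReal_ofReal (div_nonneg (by positivity)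
        (Gamma_pos_of_pos (by positivity)).le)]
    simp

theorem kappa_pos (m : ℕ) : 0 < kappa m := by
  rw [kappa_eq]
  exact div_pos (pow_pos (sqrt_pos.2 pi_pos) _) (Gamma_pos_of_pos (by positivity))

theorem cst_pos : ∀ k, 0 < cst k
  | 0 => by norm_num [cst]
  | k + 1 => mul_pos (cst_pos k) (rpow_pos_of_pos (kappa_pos _) _)

theorem Gamma_half_step {x : ℝ} (hx : 0 < x) : Gamma (x + 1 / 2) ≤ √x * Gamma x := by
  have h := Real.Gamma_mul_add_mul_le_rpow_Gamma_mul_rpow_Gamma hx (add_pos hx one_pos)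
    (half_pos one_pos) (half_pos one_pos) (add_halves 1)
  rw [show 1 / 2 * x + 1 / 2 * (x + 1) = x + 1 / 2 by ring, Real.Gamma_add_one hx.ne',
    ← Real.mul_rpow (Gamma_pos_of_pos hx).le (mul_pos hx (Gamma_pos_of_pos hx)).le,
    ← Real.sqrt_eq_rpow, show Gamma x * (x * Gamma x) = x * (Gamma x * Gamma x) by ring,
    Real.sqrt_mul hx.le, Real.sqrt_mul_self (Gamma_pos_of_pos hx).le] at h
  exact h

/-- The logarithm of the quotient of consecutive ball volumes. -/
theorem log_kappa_succ (m : ℕ) :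
    (log (2 * π) - log ((m : ℝ) + 2)) / 2 ≤ log (kappa (m + 1)) - log (kappa m) ∧
      log (kappa (m + 1)) - log (kappa m) ≤ (log (2 * π) - log ((m : ℝ) + 1)) / 2 := by
  have hG : ∀ x : ℝ, 0 < x → 0 < Gamma x := fun x hx => Gamma_pos_of_pos hx
  set x : ℝ := ((m : ℝ) + 1) / 2 with hx
  have hx0 : 0 < x := by positivity
  have h1 : (m : ℝ) / 2 + 1 = x + 1 / 2 := by rw [hx]; ring
  have h2 : ((m + 1 : ℕ) : ℝ) / 2 + 1 = x + 1 := by rw [hx]; push_cast; ring
  have e : log (kappa (m + 1)) - log (kappa m) =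
      log π / 2 - (log (Gamma (x + 1)) - log (Gamma (x + 1 / 2))) := by
    rw [kappa_eq, kappa_eq, h1, h2, log_div (by positivity) (hG _ (by positivity)).ne',
      log_div (by positivity) (hG _ (by positivity)).ne', log_pow, log_pow,
      log_sqrt pi_pos.le]
    push_cast
    ring
  have hlog : log (2 * π) = log 2 + log π := log_mul (by norm_num) pi_pos.ne'
  constructor
  · have h := Gamma_half_step (x := x + 1 / 2) (by positivity)
    rw [show x + 1 / 2 + 1 / 2 = x + 1 by ring] at h
    have h' := log_le_log (hG _ (by positivity)) h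
    rw [log_mul (sqrt_pos.2 (by positivity)).ne' (hG _ (by positivity)).ne',
      log_sqrt (by positivity), show x + 1 / 2 = ((m : ℝ) + 2) / 2 by rw [hx]; ring,
      log_div (by positivity) (by norm_num)] at h'
    rw [show x + 1 / 2 = ((m : ℝ) + 2) / 2 by rw [hx]; ring] at e
    linarith
  · have h' := log_le_log (hG _ (by positivity)) (Gamma_half_step hx0)
    rw [log_mul (sqrt_pos.2 hx0).ne' (hG _ hx0).ne', log_sqrt hx0.le] at h'
    have h3 : log (Gamma (x + 1)) = log x + log (Gamma x) := by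
      rw [Real.Gamma_add_one hx0.ne', log_mul hx0.ne' (hG _ hx0).ne']
    have h4 : log x = log ((m : ℝ) + 1) - log 2 := by
      rw [hx, log_div (by positivity) (by norm_num)]
    linarith

theorem log_succ_sub_bounds {t : ℝ} (ht : 0 < t) :
    1 / (t + 1) ≤ log (t + 1) - log t ∧ t * (log (t + 1) - log t) ≤ 1 := by
  rw [← log_div (by positivity) ht.ne']
  refine ⟨le_trans (le_of_eq ?_) (one_sub_inv_le_log_of_pos (by positivity)), ?_⟩
  · field_simp; ring
  · refine (mul_le_mul_of_nonneg_left (log_le_sub_one_of_pos (by positivity)) ht.le).trans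
      (le_of_eq ?_)
    field_simp; ring

theorem le_log_kappa : ∀ m : ℕ,
    (m : ℝ) / 2 * log (2 * π) - (((m : ℝ) + 2) * log ((m : ℝ) + 1) - m) / 2 ≤ log (kappa m)
  | 0 => by simp [kappa_eq]
  | m + 1 => by
    have h := le_log_kappa m
    have h1 := (log_kappa_succ m).1
    have h2 := (log_succ_sub_bounds (show (0 : ℝ) < m + 1 by positivity)).1
    rw [div_le_iff₀ (by positivity), show (m : ℝ) + 1 + 1 = m + 2 by ring] at h2
    push_cast
    rw [show (m : ℝ) + 1 + 1 = m + 2 by ring]
    nlinarith [h, h1, h2]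

theorem log_kappa_le : ∀ m : ℕ,
    log (kappa m) ≤ (m : ℝ) / 2 * log (2 * π) - ((m : ℝ) * log m - m) / 2
  | 0 => by simp [kappa_eq]
  | m + 1 => by
    have h := log_kappa_le m
    have h1 := (log_kappa_succ m).2
    have h2 : (m : ℝ) * (log ((m : ℝ) + 1) - log m) ≤ 1 := by
      rcases Nat.eq_zero_or_pos m with rfl | hm
      · simp
      · exact (log_succ_sub_bounds (show (0 : ℝ) < m by exact_mod_cast hm)).2
    push_cast
    nlinarith [h, h1, h2]

theorem le_log_cst : ∀ k : ℕ,
    ((k : ℝ) + 2) / 2 * log (2 * π) + ((k : ℝ) + 2) - ((k : ℝ) + 2) / 2 * log ((k : ℝ) + 3) -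
      (log ((k : ℝ) + 3) + 3) ^ 2 / 2 ≤ log (cst k)
  | 0 => by
    have h3 : 0 ≤ log (3 : ℝ) := log_nonneg (by norm_num)
    have hp : log (2 * π) ≤ 3 * log 2 := by
      rw [← Real.log_rpow (by norm_num : (0 : ℝ) < 2)]
      exact log_le_log (by positivity) (by norm_num; linarith [Real.pi_lt_four])
    have h4 : 0 ≤ log (4 : ℝ) := log_nonneg (by norm_num)
    have h2 := Real.log_two_lt_d9
    simp only [cst, CharP.cast_eq_zero, zero_add]
    nlinarith [h3, hp, h4, h2, sq_nonneg (log (3 : ℝ))]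
  | k + 1 => by
    have h := le_log_cst k
    have hk := le_log_kappa (k + 3)
    rw [cst, log_mul (cst_pos k).ne' (rpow_pos_of_pos (kappa_pos _) _).ne',
      log_rpow (kappa_pos _)]
    push_cast at hk ⊢
    set n : ℝ := (k : ℝ) + 2 with hn
    have hn2 : 2 ≤ n := by simp [hn]
    rw [show (k : ℝ) + 3 = n + 1 by rw [hn]; ring] at h hk ⊢
    rw [show (k : ℝ) + 1 + 2 = n + 1 by rw [hn]; ring,
      show (k : ℝ) + 1 + 3 = n + 2 by rw [hn]; ring]
    rw [show n + 1 + 1 = n + 2 by ring] at hk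
    set A := log (n + 1)
    set B := log (n + 2)
    obtain ⟨hd, hd'⟩ := log_succ_sub_bounds (show (0 : ℝ) < n + 1 by linarith)
    rw [show n + 1 + 1 = n + 2 by ring] at hd hd'
    change 1 / (n + 2) ≤ B - A at hd
    change (n + 1) * (B - A) ≤ 1 at hd'
    have hA : 0 ≤ A := log_nonneg (by linarith)
    have hB : B ≤ n + 1 := (log_le_sub_one_of_pos (by linarith)).trans (by linarith)
    have hd1 : 1 ≤ (n + 2) * (B - A) := by
      rwa [div_le_iff₀ (by linarith), mul_comm] at hd
    have hAB : A ≤ B := log_le_log (by linarith) (by linarith)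
    have hk' : log (2 * π) / 2 + 1 / 2 - B / 2 - B / (n + 1) ≤
        (n + 1)⁻¹ * log (kappa (k + 3)) := by
      refine le_trans (le_of_eq ?_) (mul_le_mul_of_nonneg_left hk (by positivity))
      field_simp
      ring
    have hS : B / (n + 1) + (1 - n / 2 * (B - A) - 1 / 2) ≤
        (B + 3) ^ 2 / 2 - (A + 3) ^ 2 / 2 := by
      have e1 : B / (n + 1) * (n + 1) = B := div_mul_cancel₀ _ (by linarith)
      have e2 : B / (n + 1) ≤ 1 := by rw [div_le_one (by linarith)]; exact hB
      have e3 : B / (n + 1) * (n + 2) ≤ B + 1 := by nlinarith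
      have e4 : (A + B + 6) / 2 ≤ (B - A) * ((n + 2) * ((A + B + 6) / 2)) := by nlinarith
      nlinarith
    linarith

/-- The constant is Petty's up to `exp (-O(log² n))`. -/
theorem petty_mul_exp_le_cst (k : ℕ) :
    kappa (k + 1) ^ (k + 2) / kappa (k + 2) ^ k * exp (-1 - (log ((k : ℝ) + 3) + 3) ^ 2 / 2) ≤
      cst k := by
  have hpos := div_pos (pow_pos (kappa_pos (k + 1)) (k + 2)) (pow_pos (kappa_pos (k + 2)) k)
  rw [← log_le_log_iff (mul_pos hpos (exp_pos _)) (cst_pos k),
    log_mul hpos.ne' (exp_pos _).ne', log_exp,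
    log_div (pow_pos (kappa_pos _) _).ne' (pow_pos (kappa_pos _) _).ne', log_pow, log_pow]
  have h := le_log_cst k
  have hu := log_kappa_le (k + 2)
  have hs := (log_kappa_succ (k + 1)).1
  have hl := (log_succ_sub_bounds (show (0 : ℝ) < (k : ℝ) + 2 by positivity)).2
  push_cast at h hu hs hl ⊢
  rw [show (k : ℝ) + 1 + 2 = k + 3 by ring] at hs
  rw [show (k : ℝ) + 2 + 1 = k + 3 by ring] at hl
  nlinarith

end

end Vale.Agent.P237.Every
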