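import Mathlib

/-!
Euclidean length and ball volumes for the projection body bound in every dimension.
-/

open MeasureTheory

namespace Vale.Agent.P237.Every

noncomputable section

/-- The Euclidean length. -/
def en {n : ℕ} (v : Fin n → ℝ) : ℝ := Real.sqrt (v ⬝ᵥ v)

/-- The volume of the Euclidean unit ball of dimension `n`. -/
def kappa (n : ℕ) : ℝ := volume.real (Metric.ball (0 : EuclideanSpace ℝ (Fin n)) 1)

end

end Vale.Agent.P237.Every
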