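import Vale.Agent.P237.Every.Defs
import Vale.Agent.P237.Gen.Zonotope
import Vale.Agent.P237.Gen.Approx
import Vale.Agent.P237.Gen.Proj
import Vale.Agent.P237.Gen.Mixed

/-!
The isoperimetric inequality for zonotopes.
-/

open MeasureTheory Set Pointwise Filter Topology Metric

namespace Vale.Agent.P237.Every

open Vale.Agent.P237

variable {n : ℕ} {ι : Type} [Fintype ι]

theorem en_ofLp (v : EuclideanSpace ℝ (Fin n)) : en (WithLp.ofLp v) = ‖v‖ := by
  rw [en, EuclideanSpace.norm_eq]
  simp [dotProduct, sq]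

/-- The Euclidean ball in coordinates. -/
def eball (n : ℕ) : Set (Fin n → ℝ) :=
  WithLp.ofLp '' closedBall (0 : EuclideanSpace ℝ (Fin n)) 1

theorem isCompact_eball : IsCompact (eball n) :=
  (isCompact_closedBall _ _).image (PiLp.continuous_ofLp 2 _)

theorem body_eball : Gen.Body (eball (n + 1)) := by
  refine ⟨?_, isCompact_eball, ?_⟩
  · exact (convex_closedBall _ _).linear_image (WithLp.linearEquiv 2 ℝ (Fin (n + 1) → ℝ)).toLinearMap
  · let e := (PiLp.continuousLinearEquiv 2 ℝ fun _ : Fin (n + 1) => ℝ).toHomeomorph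
    show (0 : Fin (n + 1) → ℝ) ∈ interior (e '' closedBall 0 1)
    rw [← e.image_interior]
    exact ⟨0, mem_interior_iff_mem_nhds.2 (closedBall_mem_nhds _ one_pos), by simp [e]⟩

theorem kappa_le_eball : kappa (n + 1) ≤ volume.real (eball (n + 1)) := by
  rw [kappa, measureReal_def, measureReal_def]
  refine ENNReal.toReal_mono isCompact_eball.measure_lt_top.ne ?_
  rw [← (PiLp.volume_preserving_ofLp (Fin (n + 1))).measure_preimage
    isCompact_eball.measurableSet.nullMeasurableSet]
  exact measure_mono fun x hx => ⟨x, ball_subset_closedBall hx, rfl⟩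

theorem pA_eball :
    ∃ c : ℝ, 0 < c ∧ ∀ u, Gen.pA (eball (n + 1)) u = c * en u := by
  refine ⟨volume.real (closedBall (0 : EuclideanSpace ℝ (Fin n)) 1),
    ENNReal.toReal_pos (measure_closedBall_pos volume _ one_pos).ne' measure_closedBall_lt_top.ne,
    fun u => ?_⟩
  rcases eq_or_ne u 0 with rfl | hu
  · simp [en, Gen.pA_zero]
  set w : EuclideanSpace ℝ (Fin (n + 1)) := WithLp.toLp 2 u with hw
  have hw0 : w ≠ 0 := fun h => hu (by simpa [hw] using congrArg WithLp.ofLp h)
  have hn : 0 < ‖w‖ := norm_pos_iff.2 hw0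
  set v := ‖w‖⁻¹ • w with hv
  have hv1 : ‖v‖ = 1 := by simp [hv, norm_smul, hn.ne']
  have huv : u = ‖w‖ • WithLp.ofLp v := by
    rw [hv, WithLp.ofLp_smul, smul_smul, mul_inv_cancel₀ hn.ne', one_smul, hw]
  rw [show en u = ‖w‖ from by rw [← en_ofLp]]
  conv_lhs => rw [huv]
  rw [Gen.pA_smul body_eball hn.le, mul_comm ‖w‖]
  congr 1
  rw [eball, Gen.pA_eq_proj (convex_closedBall _ _) (isCompact_closedBall _ _) hv1]
  have hv0 : v ≠ 0 := by rintro h; simp [h] at hv1
  haveI : Fact (Module.finrank ℝ (EuclideanSpace ℝ (Fin (n + 1))) = n + 1) := ⟨by simp⟩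
  let b := (OrthonormalBasis.fromOrthogonalSpanSingleton (𝕜 := ℝ) n hv0).repr
  have himg : (Submodule.orthogonalProjectionOnto (ℝ ∙ v)ᗮ) ''
      closedBall (0 : EuclideanSpace ℝ (Fin (n + 1))) 1 = b ⁻¹' closedBall 0 1 := by
    ext z
    simp only [mem_image, mem_closedBall_zero_iff, mem_preimage, LinearIsometryEquiv.norm_map]
    constructor
    · rintro ⟨x, hx, rfl⟩
      exact (Submodule.norm_orthogonalProjectionOnto_apply_le _ x).trans hx
    · intro hz
      exact ⟨z, by simpa using hz, Submodule.orthogonalProjectionOnto_mem_subspace_eq_self z⟩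
  rw [himg, measureReal_def, measureReal_def,
    b.measurePreserving.measure_preimage measurableSet_closedBall.nullMeasurableSet]

theorem iso_zon (s : ι → Fin (n + 1) → ℝ) (hs : 0 < volume.real (Gen.zon s)) :
    kappa (n + 1) * volume.real (Gen.zon s) ^ n ≤
      (2 / ((n : ℝ) + 1) * ∑ f, en (Gen.piGen s f)) ^ (n + 1) := by
  obtain ⟨c, hc, hpA⟩ := pA_eball (n := n)
  set M := 2 / ((n : ℝ) + 1) * ∑ f, en (Gen.piGen s f) with hM
  have hK := Gen.zon_body s hs
  have key : ∀ η : ℝ, 0 < η →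
      kappa (n + 1) * volume.real (Gen.zon s) ^ n ≤ (1 + η) ^ (2 * (n + 1)) * M ^ (n + 1) := by
    intro η hη
    obtain ⟨m, t, ht⟩ := Gen.exists_zonotope_approx body_eball hη
    have hη1 : 0 < 1 + η := by linarith
    set t' := c⁻¹ • t with ht'
    have hsupp : ∀ u, Gen.supp t' u ≤ (1 + η) * en u ∧ en u ≤ (1 + η) * Gen.supp t' u := fun u => by
      obtain ⟨h1, h2⟩ := ht u
      rw [hpA] at h1 h2
      rw [ht', Gen.supp_smul _ (inv_nonneg.2 hc.le)]
      constructor
      · rw [inv_mul_le_iff₀ hc]; linarith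
      · rw [mul_left_comm, le_inv_mul_iff₀ hc]; linarith
    have hmix : Gen.mixed (Gen.zon s) t' ≤ (1 + η) * M := by
      simp only [Gen.mixed, Gen.pA_zon]
      rw [Gen.supp_symm, hM, mul_left_comm, Finset.mul_sum (a := 1 + η)]
      exact mul_le_mul_of_nonneg_left (Finset.sum_le_sum fun f _ => (hsupp _).1) (by positivity)
    have hsub : eball (n + 1) ⊆ (1 + η) • Gen.zon t' := by
      rintro _ ⟨x, hx, rfl⟩
      rw [mem_smul_set_iff_inv_smul_mem₀ hη1.ne']
      refine Gen.subset_zon_of_dot_le t' fun u => ?_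
      rw [dotProduct_smul, smul_eq_mul, inv_mul_le_iff₀ hη1]
      refine le_trans ?_ (hsupp u).2
      rw [show en u = ‖(WithLp.toLp 2 u : EuclideanSpace ℝ (Fin (n + 1)))‖ by rw [← en_ofLp]]
      have h1 := real_inner_le_norm (WithLp.toLp 2 u : EuclideanSpace ℝ (Fin (n + 1))) x
      have h2 : inner ℝ (WithLp.toLp 2 u : EuclideanSpace ℝ (Fin (n + 1))) x = u ⬝ᵥ x.ofLp := by
        simp [PiLp.inner_apply, dotProduct, mul_comm]
      rw [mem_closedBall_zero_iff] at hx
      nlinarith [norm_nonneg (WithLp.toLp 2 u : EuclideanSpace ℝ (Fin (n + 1)))]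
    have hvol : kappa (n + 1) ≤ (1 + η) ^ (n + 1) * volume.real (Gen.zon t') := by
      have e : volume.real ((1 + η) • Gen.zon t') = (1 + η) ^ (n + 1) * volume.real (Gen.zon t') := by
        rw [measureReal_def, Measure.addHaar_smul_of_nonneg volume hη1.le, ENNReal.toReal_mul,
          ENNReal.toReal_ofReal (by positivity), ← measureReal_def]
        simp
      exact kappa_le_eball.trans
        (e ▸ measureReal_mono hsub ((Gen.zon_compact t').smul _).measure_ne_top)
    calc kappa (n + 1) * volume.real (Gen.zon s) ^ n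
        ≤ (1 + η) ^ (n + 1) * volume.real (Gen.zon t') * volume.real (Gen.zon s) ^ n :=
          mul_le_mul_of_nonneg_right hvol (by positivity)
      _ = (1 + η) ^ (n + 1) * (volume.real (Gen.zon s) ^ n * volume.real (Gen.zon t')) := by ring
      _ ≤ (1 + η) ^ (n + 1) * ((1 + η) * M) ^ (n + 1) :=
          mul_le_mul_of_nonneg_left ((Gen.minkowski hK t').trans
            (pow_le_pow_left₀ (Gen.mixed_nonneg hK _) hmix _)) (by positivity)
      _ = _ := by rw [mul_pow, ← mul_assoc, ← pow_add, two_mul]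
  have hlim : Tendsto (fun η : ℝ => (1 + η) ^ (2 * (n + 1)) * M ^ (n + 1)) (𝓝[>] 0)
      (𝓝 (M ^ (n + 1))) := by
    have : Continuous fun η : ℝ => (1 + η) ^ (2 * (n + 1)) * M ^ (n + 1) := by fun_prop
    simpa using (this.tendsto 0).mono_left (nhdsWithin_le_nhds (s := Ioi (0:ℝ)))
  exact ge_of_tendsto hlim (eventually_nhdsWithin_of_forall fun η hη => key η hη)

end Vale.Agent.P237.Every
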