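import Vale.Agent.P237.AllN.Body
import Vale.Agent.P237.Gen.Zonotope
import Vale.Agent.P237.Gen.Mixed
import Vale.Agent.P237.Every.Defs

/-!
Slices of zonotopes: the marginal of the uniform distribution and the bound for one direction.
-/

open MeasureTheory Set Pointwise Filter Real
open scoped RealInnerProductSpace ENNReal

namespace Vale.Agent.P237.Every

open Vale.Agent.P237

variable {n : ℕ}

theorem inner_toLp_eq (x y : Fin n → ℝ) :
    ⟪WithLp.toLp 2 x, WithLp.toLp 2 y⟫ = x ⬝ᵥ y := by
  rw [EuclideanSpace.inner_toLp_toLp]; simp [dotProduct_comm]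

theorem en_eq_norm (x : Fin n → ℝ) : en x = ‖WithLp.toLp 2 x‖ := by
  rw [en, ← inner_toLp_eq, real_inner_self_eq_norm_sq, Real.sqrt_sq (norm_nonneg _)]

/-- An orthogonal involution carrying a unit vector to the first coordinate vector. -/
theorem exists_swap {v : Fin (n + 1) → ℝ} (hv : en v = 1) :
    ∃ R : (Fin (n + 1) → ℝ) ≃ₗ[ℝ] (Fin (n + 1) → ℝ),
      |LinearMap.det (R : (Fin (n + 1) → ℝ) →ₗ[ℝ] (Fin (n + 1) → ℝ))| = 1 ∧
      (∀ x y, R x ⬝ᵥ y = x ⬝ᵥ R y) ∧ R (Pi.single 0 1) = v ∧ (∀ x, R x 0 = v ⬝ᵥ x) := by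
  set a : EuclideanSpace ℝ (Fin (n + 1)) := WithLp.toLp 2 v
  set b : EuclideanSpace ℝ (Fin (n + 1)) := WithLp.toLp 2 (Pi.single 0 1)
  have hab : ‖a‖ = ‖b‖ := by
    rw [show ‖a‖ = 1 from (en_eq_norm v).symm.trans hv]
    simp [b]
  set L := Submodule.reflection (ℝ ∙ (a - b))ᗮ with hL
  set R := ((WithLp.linearEquiv 2 ℝ (Fin (n + 1) → ℝ)).symm.trans
    (L.toLinearEquiv.trans (WithLp.linearEquiv 2 ℝ (Fin (n + 1) → ℝ)))) with hR
  have hRapp : ∀ x, WithLp.toLp 2 (R x) = L (WithLp.toLp 2 x) := fun x => by simp [R]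
  have hinv : ∀ x, R (R x) = x := fun x => by
    apply WithLp.toLp_injective 2
    rw [hRapp, hRapp]
    exact Submodule.reflection_reflection _ _
  have hsym : ∀ x y, R x ⬝ᵥ y = x ⬝ᵥ R y := fun x y => by
    calc R x ⬝ᵥ y = R x ⬝ᵥ R (R y) := by rw [hinv]
      _ = x ⬝ᵥ R y := by
          rw [← inner_toLp_eq, ← inner_toLp_eq, hRapp, hRapp (R y), L.inner_map_map]
  have he : R (Pi.single 0 1) = v := by
    rw [← hinv v]
    congr 1
    apply WithLp.toLp_injective 2
    rw [hRapp]
    exact (Submodule.reflection_sub hab).symm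
  refine ⟨R, ?_, hsym, he, fun x => ?_⟩
  · have h : (R : (Fin (n + 1) → ℝ) →ₗ[ℝ] (Fin (n + 1) → ℝ)).comp
        (R : (Fin (n + 1) → ℝ) →ₗ[ℝ] (Fin (n + 1) → ℝ)) = LinearMap.id :=
      LinearMap.ext fun x => hinv x
    have h2 := congrArg LinearMap.det h
    rw [LinearMap.det_comp, LinearMap.det_id] at h2
    rcases mul_self_eq_one_iff.1 h2 with h3 | h3 <;> simp [h3]
  · rw [← he, hsym]
    simp [single_dotProduct]

/-- The slice volumes form the density of the first coordinate. -/
theorem slA_props {K : Set (Fin (n + 1) → ℝ)} (hK : IsCompact K) :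
    Measurable (AllN.slA K) ∧ (∀ t, 0 ≤ AllN.slA K t) ∧
      (∃ M L : ℝ, (∀ t, AllN.slA K t ≤ M) ∧ ∀ t, L < |t| → AllN.slA K t = 0) ∧
      (volume.restrict K).map (fun x => x 0) =
        volume.withDensity (fun t => ENNReal.ofReal (AllN.slA K t)) := by
  obtain ⟨L, hL⟩ := hK.isBounded.exists_norm_le
  have hsub : ∀ t, AllN.sl K t ⊆ Metric.closedBall 0 L := fun t y hy => by
    rw [mem_closedBall_zero_iff]
    have h := hL _ hy
    have hL0 : 0 ≤ L := (norm_nonneg _).trans h
    refine (pi_norm_le_iff_of_nonneg hL0).2 fun i => ?_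
    have h2 := (norm_le_pi_norm (Fin.cons t y : Fin (n + 1) → ℝ) i.succ).trans h
    simpa using h2
  have hfin : ∀ t, volume (AllN.sl K t) ≠ ∞ := fun t =>
    ((measure_mono (hsub t)).trans_lt (isCompact_closedBall 0 L).measure_lt_top).ne
  have hm := (AllN.volume_eq_lintegral hK.measurableSet).2.2
  refine ⟨hm.ennreal_toReal, fun t => measureReal_nonneg,
    ⟨volume.real (Metric.closedBall (0 : Fin n → ℝ) L), L, fun t => ?_, fun t ht => ?_⟩, ?_⟩
  · exact measureReal_mono (hsub t) (isCompact_closedBall 0 L).measure_lt_top.ne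
  · have : AllN.sl K t = ∅ := eq_empty_of_forall_notMem fun y hy => by
      have h := (norm_le_pi_norm (Fin.cons t y : Fin (n + 1) → ℝ) 0).trans (hL _ hy)
      rw [Fin.cons_zero, Real.norm_eq_abs] at h
      linarith
    change volume.real (AllN.sl K t) = 0
    simp [this]
  · ext B hB
    have hBm : MeasurableSet ((fun x : Fin (n + 1) → ℝ => x 0) ⁻¹' B) :=
      measurable_pi_apply 0 hB
    rw [Measure.map_apply (measurable_pi_apply 0) hB, withDensity_apply _ hB,
      Measure.restrict_apply hBm,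
      (AllN.volume_eq_lintegral (hBm.inter hK.measurableSet)).1, ← lintegral_indicator hB]
    refine lintegral_congr fun t => ?_
    by_cases ht : t ∈ B
    · rw [indicator_of_mem ht, show AllN.slA K t = volume.real (AllN.sl K t) from rfl,
        ofReal_measureReal (hfin t)]
      congr 1
      ext y
      simp [AllN.sl, ht]
    · rw [indicator_of_notMem ht]
      convert measure_empty (μ := (volume : Measure (Fin n → ℝ)))
      ext y
      simp [AllN.sl, ht]

/-- Renyi entropy dominates Shannon entropy. -/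
theorem pow_mul_exp_le (hn : 2 ≤ n) {A : ℝ → ℝ} (hm : Measurable A) (h0 : ∀ t, 0 ≤ A t)
    {M L : ℝ} (hM : ∀ t, A t ≤ M) (hL : ∀ t, L < |t| → A t = 0) {V : ℝ} (hV : 0 < V)
    (hint : ∫ t, A t = V) :
    Integrable (fun t => A t / V * Real.log (A t / V)) ∧
      V ^ (n - 1) * exp (-∫ t, A t / V * Real.log (A t / V)) ≤
        (∫ t, A t ^ (((n : ℝ) - 1) / n)) ^ n := by
  set p : ℝ := ((n : ℝ) - 1) / n with hp
  have hn0 : (0 : ℝ) < n := by exact_mod_cast (show 0 < n by omega)
  have hn2 : (2 : ℝ) ≤ n := by exact_mod_cast hn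
  have hp0 : 0 < p := by rw [hp]; exact div_pos (by linarith) hn0
  have hbox : ∀ F : ℝ → ℝ, Measurable F → (∃ C, ∀ t, |F t| ≤ C) → (∀ t, L < |t| → F t = 0) →
      Integrable F := by
    intro F hF ⟨C, hC⟩ hFL
    have hs : F = (Icc (-L) L).indicator F := by
      funext t
      by_cases ht : t ∈ Icc (-L) L
      · rw [indicator_of_mem ht]
      · rw [indicator_of_notMem ht]
        exact hFL t (lt_of_not_ge fun h => ht ⟨(abs_le.1 h).1, (abs_le.1 h).2⟩)
    rw [hs, integrable_indicator_iff measurableSet_Icc]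
    exact (integrableOn_const measure_Icc_lt_top.ne (C := C)).mono' hF.aestronglyMeasurable
      (Eventually.of_forall fun t => hC t)
  set f : ℝ → ℝ := fun t => A t / V with hf
  have hfm : Measurable f := hm.div_const V
  have hf0 : ∀ t, 0 ≤ f t := fun t => div_nonneg (h0 t) hV.le
  have hfM : ∀ t, f t ≤ M / V := fun t => div_le_div_of_nonneg_right (hM t) hV.le
  have hfl : Integrable fun t => f t * Real.log (f t) := by
    obtain ⟨C, hC⟩ := (isCompact_Icc (a := (0 : ℝ)) (b := M / V)).exists_bound_of_continuousOn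
      Real.continuous_mul_log.continuousOn
    exact hbox _ (hfm.mul hfm.log) ⟨C, fun t => hC _ ⟨hf0 t, hfM t⟩⟩
      fun t ht => by simp [f, hL t ht]
  have hfi : Integrable f := hbox f hfm ⟨M / V, fun t => by
    rw [abs_of_nonneg (hf0 t)]; exact hfM t⟩ fun t ht => by simp [f, hL t ht]
  have hfp : Integrable fun t => f t ^ p := hbox _ (hfm.pow_const p)
    ⟨(M / V) ^ p, fun t => by
      rw [abs_of_nonneg (Real.rpow_nonneg (hf0 t) _)]
      exact Real.rpow_le_rpow (hf0 t) (hfM t) hp0.le⟩
    fun t ht => by simp [f, hL t ht, Real.zero_rpow hp0.ne']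
  refine ⟨hfl, ?_⟩
  set H := -∫ t, f t * Real.log (f t) with hH
  have h1 : ∫ t, f t = 1 := by simp only [f, integral_div, hint, div_self hV.ne']
  have key : exp (H / n) ≤ ∫ t, f t ^ p := by
    have hle : ∫ t, (exp (H / n) * (1 - H / n) * f t + (-exp (H / n) / n) * (f t * Real.log (f t))) ≤
        ∫ t, f t ^ p := by
      refine integral_mono ((hfi.const_mul _).add (hfl.const_mul _)) hfp fun t => ?_
      rcases (hf0 t).lt_or_eq with h | h
      · have e : f t ^ p = f t * exp (-Real.log (f t) / n) := by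
          conv_rhs => arg 1; rw [← exp_log h]
          rw [Real.rpow_def_of_pos h, ← exp_add, hp]
          congr 1
          field_simp
          ring
        rw [e]
        have h2 := mul_le_mul_of_nonneg_left (Real.add_one_le_exp (-Real.log (f t) / n - H / n))
          (mul_nonneg h.le (exp_pos (H / n)).le)
        rw [mul_assoc (f t), mul_assoc (f t), ← exp_add, add_sub_cancel] at h2
        refine le_trans (le_of_eq ?_) h2
        ring
      · rw [← h]; simp [Real.zero_rpow hp0.ne']
    rw [integral_add (hfi.const_mul _) (hfl.const_mul _), integral_const_mul, integral_const_mul,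
      h1] at hle
    refine le_trans (le_of_eq ?_) hle
    rw [show ∫ t, f t * Real.log (f t) = -H by rw [hH, neg_neg]]
    ring
  have e : ∫ t, A t ^ p = V ^ p * ∫ t, f t ^ p := by
    rw [← integral_const_mul]
    refine integral_congr_ae (Eventually.of_forall fun t => ?_)
    simp only [f]
    rw [Real.div_rpow (h0 t) hV.le, mul_div_cancel₀ _ (Real.rpow_pos_of_pos hV p).ne']
  rw [e, mul_pow]
  have hVp : (V ^ p) ^ n = V ^ (n - 1) := by
    rw [← Real.rpow_natCast, ← Real.rpow_mul hV.le, hp, div_mul_cancel₀ _ hn0.ne',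
      ← Real.rpow_natCast, Nat.cast_sub (by omega), Nat.cast_one]
  rw [hVp]
  refine mul_le_mul_of_nonneg_left ?_ (by positivity)
  calc exp H = exp (H / n) ^ n := by rw [← Real.exp_nat_mul]; congr 1; field_simp
    _ ≤ _ := pow_le_pow_left₀ (exp_pos _).le key n

/-- The bound for one direction. -/
theorem exists_dir_bound (hn : 2 ≤ n) {c : ℝ} (hc0 : 0 ≤ c)
    (hP : ∀ S : Set (Fin n → ℝ), IsCompact S → Convex ℝ S →
      c * volume.real S ^ (n - 1) ≤ volume.real (AllN.piSet S))
    {ι : Type} [Fintype ι] (s : ι → Fin (n + 1) → ℝ) (hs : 0 < volume.real (Gen.zon s))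
    {v : Fin (n + 1) → ℝ} (hv : en v = 1) :
    ∃ f : ℝ → ℝ, Measurable f ∧ (∀ t, 0 ≤ f t) ∧
      Integrable (fun t => f t * Real.log (f t)) ∧
      (volume.restrict (WithLp.toLp 2 '' Gen.zon s)).map
          (fun x : EuclideanSpace ℝ (Fin (n + 1)) => ⟪WithLp.toLp 2 v, x⟫) =
        volume.withDensity (fun t => ENNReal.ofReal (volume.real (Gen.zon s) * f t)) ∧
      c * (volume.real (Gen.zon s) ^ (n - 1) * exp (-∫ t, f t * Real.log (f t))) ≤
        Gen.supp (Gen.piGen (Gen.piGen s)) v := by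
  set V := volume.real (Gen.zon s) with hV
  obtain ⟨R, hdet, hsym, hRe, hR0⟩ := exists_swap hv
  set s' := fun i => R (s i) with hs'
  set Z' := Gen.zon s' with hZ'
  have himg : (R : (Fin (n + 1) → ℝ) →ₗ[ℝ] (Fin (n + 1) → ℝ)) '' Gen.zon s = Z' := Gen.zon_map _ _
  have hV' : volume.real Z' = V := by rw [← himg, Gen.vol_map, hdet, one_mul]
  obtain ⟨hm, h0, ⟨M, L, hM, hL⟩, hmap⟩ := slA_props (Gen.zon_compact s')
  have hint : ∫ t, AllN.slA Z' t = V := by
    have h : volume Z' = ∫⁻ t, ENNReal.ofReal (AllN.slA Z' t) := by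
      have := congrArg (fun μ : Measure ℝ => μ univ) hmap
      rw [Measure.map_apply (measurable_pi_apply 0) MeasurableSet.univ, preimage_univ,
        Measure.restrict_apply_univ, withDensity_apply _ MeasurableSet.univ,
        setLIntegral_univ] at this
      exact this
    rw [integral_eq_lintegral_of_nonneg_ae (Eventually.of_forall h0) hm.aestronglyMeasurable,
      ← h, ← measureReal_def, hV']
  obtain ⟨hfl, hkey⟩ := pow_mul_exp_le hn hm h0 hM hL hs hint
  refine ⟨fun t => AllN.slA Z' t / V, hm.div_const V, fun t => div_nonneg (h0 t) hs.le, hfl,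
    ?_, ?_⟩
  · have hgm : Measurable fun x : EuclideanSpace ℝ (Fin (n + 1)) => ⟪WithLp.toLp 2 v, x⟫ :=
      (continuous_const.inner continuous_id).measurable
    have hemb : MeasurableEmbedding (WithLp.toLp 2 : (Fin (n + 1) → ℝ) → _) :=
      (MeasurableEquiv.toLp 2 (Fin (n + 1) → ℝ)).measurableEmbedding
    have hRc : Continuous R := LinearMap.continuous_of_finiteDimensional
      (R : (Fin (n + 1) → ℝ) →ₗ[ℝ] (Fin (n + 1) → ℝ))
    have hRemb : MeasurableEmbedding R := hRc.measurableEmbedding R.injective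
    have hRmap : (volume : Measure (Fin (n + 1) → ℝ)).map R = volume := by
      have hne : LinearMap.det (R : (Fin (n + 1) → ℝ) →ₗ[ℝ] (Fin (n + 1) → ℝ)) ≠ 0 := by
        intro h; rw [h, abs_zero] at hdet; exact zero_ne_one hdet
      have h := Real.map_linearMap_volume_pi_eq_smul_volume_pi
        (f := (R : (Fin (n + 1) → ℝ) →ₗ[ℝ] (Fin (n + 1) → ℝ))) hne
      rw [abs_inv, hdet, inv_one, ENNReal.ofReal_one, one_smul] at h
      exact h
    have e1 : volume.restrict (WithLp.toLp 2 '' Gen.zon s) =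
        (volume.restrict (Gen.zon s)).map (WithLp.toLp 2) := by
      rw [← (PiLp.volume_preserving_toLp (Fin (n + 1))).map_eq, hemb.restrict_map,
        preimage_image_eq _ hemb.injective]
    have e2 : volume.restrict Z' = (volume.restrict (Gen.zon s)).map R := by
      have h := hRemb.restrict_map (volume : Measure (Fin (n + 1) → ℝ)) (R '' Gen.zon s)
      rw [hRmap, preimage_image_eq _ hRemb.injective] at h
      exact himg ▸ h
    rw [e1, Measure.map_map hgm hemb.measurable]
    have e3 : ((fun x : EuclideanSpace ℝ (Fin (n + 1)) => ⟪WithLp.toLp 2 v, x⟫) ∘ WithLp.toLp 2) =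
        (fun x : Fin (n + 1) → ℝ => x 0) ∘ R := by
      funext x
      rw [Function.comp_apply, Function.comp_apply, inner_toLp_eq, hR0]
    rw [e3, ← Measure.map_map (measurable_pi_apply 0) hRc.measurable, ← e2, hmap]
    refine congrArg _ (funext fun t => ?_)
    rw [mul_div_cancel₀ _ hs.ne']
  · refine (mul_le_mul_of_nonneg_left hkey hc0).trans ?_
    have hs0 : 0 < volume.real Z' := hV'.symm ▸ hs
    have hB := Gen.zon_body s' hs0
    have hneg : -Z' = Z' := by
      ext x
      exact ⟨fun hx => neg_neg x ▸ Gen.zon_neg_mem s' hx, fun hx => Gen.zon_neg_mem s' hx⟩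
    have hpi : AllN.piSet Z' = Gen.zon (Gen.piGen s') := by
      ext x
      simp only [AllN.piSet, Set.mem_ofPred_eq, AllN.pA_eq_gen, hZ', Gen.pA_zon]
      exact ⟨fun h => Gen.subset_zon_of_dot_le _ h, fun h u => Gen.dot_le_supp _ u h⟩
    refine (AllN.body_slice_le_pA_piSet hn hc0 hP hB hneg).trans (le_of_eq ?_)
    rw [hpi, AllN.pA_eq_gen, Gen.pA_zon, hs', Gen.supp_piGen_piGen_map, hdet, one_pow, div_one,
      one_mul]
    congr 1
    refine dotProduct_eq _ _ fun x => ?_
    rw [Gen.adj_dot, ← hRe, hsym]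
    rfl

end Vale.Agent.P237.Every
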