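import Vale.Agent.P237.Every.Position
import Vale.Agent.P237.Every.Slices
import Vale.Agent.P237.Every.Iso
import Vale.Agent.P237.Every.BLUniform

/-!
The inductive step for zonotopes.
-/

open MeasureTheory Set Real
open scoped RealInnerProductSpace ENNReal

namespace Vale.Agent.P237.Every

open Vale.Agent.P237

variable {n : ℕ} {ι : Type} [Fintype ι]

theorem en_nonneg (x : Fin n → ℝ) : 0 ≤ en x := Real.sqrt_nonneg _

theorem en_smul (a : ℝ) (x : Fin n → ℝ) : en (a • x) = |a| * en x := by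
  rw [en_eq_norm, en_eq_norm, WithLp.toLp_smul, norm_smul, Real.norm_eq_abs]

theorem en_eq_zero {x : Fin n → ℝ} (h : en x = 0) : x = 0 := by
  rw [en_eq_norm, norm_eq_zero] at h
  exact congrArg WithLp.ofLp h

theorem supp_smul_right (s : ι → Fin (n + 1) → ℝ) (a : ℝ) (u : Fin (n + 1) → ℝ) :
    Gen.supp s (a • u) = |a| * Gen.supp s u := by
  simp [Gen.supp, Finset.mul_sum, smul_dotProduct, abs_mul]

/-- The step for a zonotope whose projection body generators are isotropic. -/
theorem zon_step_iso (hn : 2 ≤ n) {c : ℝ} (hc : 0 ≤ c)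
    (hP : ∀ S : Set (Fin n → ℝ), IsCompact S → Convex ℝ S →
      c * volume.real S ^ (n - 1) ≤ volume.real (AllN.piSet S))
    (s : ι → Fin (n + 1) → ℝ) (hs : 0 < volume.real (Gen.zon s))
    (hiso : ∀ x, ∑ f, (Gen.piGen s f ⬝ᵥ x) ^ 2 / en (Gen.piGen s f) =
      (∑ f, en (Gen.piGen s f)) / (n + 1) * (x ⬝ᵥ x)) :
    c * kappa (n + 1) ^ ((n + 1 : ℝ)⁻¹) * volume.real (Gen.zon s) ^ n ≤
      volume.real (Gen.zon (Gen.piGen s)) := by
  classical
  set V := volume.real (Gen.zon s) with hV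
  set g := Gen.piGen s with hg
  set S := ∑ f, en (g f) with hS
  have hN : (0 : ℝ) < n + 1 := by positivity
  have hS0 : 0 < S := by
    refine lt_of_le_of_ne (Finset.sum_nonneg fun f _ => en_nonneg _) fun h => ?_
    have h1 := (Gen.pA_pos (Gen.zon_body s hs) (u := Gen.e0) (by simp [Gen.e0]))
    rw [Gen.pA_zon, Gen.supp] at h1
    refine h1.ne' (Finset.sum_eq_zero fun f hf => ?_)
    have := en_eq_zero ((Finset.sum_eq_zero_iff_of_nonneg fun f _ => en_nonneg (g f)).1 h.symm f hf)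
    rw [← hg, this, dotProduct_zero, abs_zero]
  set v : (Fin n → ι) → Fin (n + 1) → ℝ := fun f =>
    if en (g f) = 0 then Gen.e0 else (en (g f))⁻¹ • g f with hv
  have hv1 : ∀ f, en (v f) = 1 := fun f => by
    simp only [v]
    split_ifs with h
    · simp [en, Gen.e0]
    · rw [en_smul, abs_inv, abs_of_nonneg (en_nonneg _), inv_mul_cancel₀ h]
  have hgv : ∀ f, g f = en (g f) • v f := fun f => by
    simp only [v]
    split_ifs with h
    · rw [h, zero_smul, en_eq_zero h]
    · rw [smul_inv_smul₀ h]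
  set w : (Fin n → ι) → ℝ := fun f => ((n : ℝ) + 1) * en (g f) / S with hw
  have hw0 : ∀ f, 0 ≤ w f := fun f => div_nonneg (mul_nonneg hN.le (en_nonneg _)) hS0.le
  have hw1 : ∑ f, w f = (n : ℝ) + 1 := by
    simp only [w, ← Finset.sum_div, ← Finset.mul_sum, ← hS]
    field_simp
  have hq : ∀ x, ∑ f, w f * (v f ⬝ᵥ x) ^ 2 = x ⬝ᵥ x := fun x => by
    have e : ∀ f, w f * (v f ⬝ᵥ x) ^ 2 = ((n : ℝ) + 1) / S * ((g f ⬝ᵥ x) ^ 2 / en (g f)) := by
      intro f
      rcases eq_or_ne (en (g f)) 0 with h | h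
      · simp [w, h]
      · conv_rhs => rw [hgv f, smul_dotProduct, smul_eq_mul, mul_pow, ← hgv f]
        simp only [w]
        field_simp
    rw [Finset.sum_congr rfl fun f _ => e f, ← Finset.mul_sum, hiso]
    field_simp
  set u : (Fin n → ι) → EuclideanSpace ℝ (Fin (n + 1)) := fun f => WithLp.toLp 2 (v f) with hu
  have hu1 : ∀ f, ‖u f‖ = 1 := fun f => by rw [← en_eq_norm, hv1]
  have hI : ∀ x, ∑ f, (w f * ⟪u f, x⟫) • u f = x := fun x => by
    have hQ : ∀ z, ∑ f, w f * ⟪u f, z⟫ ^ 2 = ⟪z, z⟫ := fun z => by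
      rw [← WithLp.toLp_ofLp 2 z]
      simp only [u, inner_toLp_eq]
      exact hq _
    refine ext_inner_right ℝ fun y => ?_
    simp only [sum_inner, real_inner_smul_left]
    have h := hQ (x + y)
    simp only [inner_add_right, inner_add_left, add_sq, mul_add, Finset.sum_add_distrib] at h
    rw [hQ x, hQ y, real_inner_comm x y] at h
    have e : ∑ f, w f * (2 * ⟪u f, x⟫ * ⟪u f, y⟫) = 2 * ∑ f, w f * ⟪u f, x⟫ * ⟪u f, y⟫ := by
      rw [Finset.mul_sum]
      exact Finset.sum_congr rfl fun f _ => by ring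
    rw [e] at h
    linarith
  choose F hFm hF0 hFl hFmap hFb using fun f => exists_dir_bound hn hc hP s hs (hv1 f)
  set H : (Fin n → ι) → ℝ := fun f => -∫ t, F f t * Real.log (F f t) with hH
  set Z : Set (EuclideanSpace ℝ (Fin (n + 1))) := WithLp.toLp 2 '' Gen.zon s with hZ
  have hZm : MeasurableSet Z :=
    ((Gen.zon_compact s).image (PiLp.continuous_toLp 2 _)).isClosed.measurableSet
  have hZv : volume Z = ENNReal.ofReal V := by
    rw [hV, ofReal_measureReal (Gen.zon_compact s).measure_lt_top.ne,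
      ← (PiLp.volume_preserving_toLp (Fin (n + 1))).measure_preimage hZm.nullMeasurableSet, hZ,
      preimage_image_eq _ (WithLp.toLp_injective 2)]
  have hBL : Real.log V ≤ ∑ f, w f * H f :=
    log_volume_le hw0 hu1 hI hZm hs hZv hFm hF0 hFl hFmap
  set a := Real.log V / ((n : ℝ) + 1) with ha
  have htan : ((n : ℝ) + 1) * exp a ≤ ∑ f, w f * exp (H f) := by
    have h1 : ∀ f, exp a * (w f * (1 - a) + w f * H f) ≤ w f * exp (H f) := fun f => by
      have h := Real.add_one_le_exp (H f - a)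
      calc exp a * (w f * (1 - a) + w f * H f) = w f * (exp a * (H f - a + 1)) := by ring
        _ ≤ w f * (exp a * exp (H f - a)) :=
          mul_le_mul_of_nonneg_left (mul_le_mul_of_nonneg_left h (exp_pos a).le) (hw0 f)
        _ = w f * exp (H f) := by rw [← exp_add, add_sub_cancel]
    refine le_trans ?_ (Finset.sum_le_sum fun f _ => h1 f)
    rw [← Finset.mul_sum, Finset.sum_add_distrib, ← Finset.sum_mul, hw1, mul_comm]
    refine mul_le_mul_of_nonneg_left ?_ (exp_pos a).le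
    have : ((n : ℝ) + 1) * a = Real.log V := by rw [ha]; field_simp
    rw [mul_sub, mul_one, this]
    linarith
  -- the volume of the zonotope spanned by `g`
  set X := 2 / ((n : ℝ) + 1) * S with hX
  have hW : c * V ^ (n - 1) * (X * exp a) ≤ volume.real (Gen.zon g) := by
    rw [Gen.vol_zon]
    calc c * V ^ (n - 1) * (X * exp a)
        = 2 / ((n : ℝ) + 1) * (S / ((n : ℝ) + 1) *
            (c * V ^ (n - 1) * (((n : ℝ) + 1) * exp a))) := by
          rw [hX]; field_simp
      _ ≤ 2 / ((n : ℝ) + 1) * (S / ((n : ℝ) + 1) *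
            (c * V ^ (n - 1) * ∑ f, w f * exp (H f))) := by gcongr
      _ = 2 / ((n : ℝ) + 1) * ∑ f, en (g f) * (c * (V ^ (n - 1) * exp (H f))) := by
          simp only [w, Finset.mul_sum]
          exact Finset.sum_congr rfl fun f _ => by field_simp
      _ ≤ _ := by
          refine mul_le_mul_of_nonneg_left (Finset.sum_le_sum fun f _ => ?_) (by positivity)
          conv_rhs => rw [hgv f, supp_smul_right, abs_of_nonneg (en_nonneg _)]
          exact mul_le_mul_of_nonneg_left (hFb f) (en_nonneg _)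
  refine le_trans ?_ hW
  have hk : kappa (n + 1) * V ^ n ≤ X ^ (n + 1) := iso_zon s hs
  have hk0 : 0 ≤ kappa (n + 1) := measureReal_nonneg
  set r := exp a with hr
  have hrN : r ^ (n + 1) = V := by
    rw [hr, ← exp_nat_mul, ha]
    rw [show (((n + 1 : ℕ) : ℝ)) * (Real.log V / ((n : ℝ) + 1)) = Real.log V by
      push_cast; field_simp]
    exact exp_log hs
  have hX0 : 0 ≤ X := by positivity
  have hroot : kappa (n + 1) ^ ((n + 1 : ℝ)⁻¹) * r ^ n ≤ X := by
    refine (pow_le_pow_iff_left₀ (by positivity) hX0 (n.succ_ne_zero)).1 ?_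
    rw [mul_pow, pow_right_comm, hrN, show ((n : ℝ) + 1) = ((n + 1 : ℕ) : ℝ) by push_cast; rfl,
      Real.rpow_inv_natCast_pow hk0 n.succ_ne_zero]
    exact hk
  calc c * kappa (n + 1) ^ ((n + 1 : ℝ)⁻¹) * V ^ n
      = c * V ^ (n - 1) * (kappa (n + 1) ^ ((n + 1 : ℝ)⁻¹) * r ^ n * r) := by
        rw [mul_assoc (kappa (n + 1) ^ _) (r ^ n) r, ← pow_succ, hrN,
          ← pow_sub_one_mul (show n ≠ 0 by omega) V]
        ring
    _ ≤ c * V ^ (n - 1) * (X * r) := by gcongr

/-- The step for every zonotope. -/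
theorem zon_step (hn : 2 ≤ n) {c : ℝ} (hc : 0 ≤ c)
    (hP : ∀ S : Set (Fin n → ℝ), IsCompact S → Convex ℝ S →
      c * volume.real S ^ (n - 1) ≤ volume.real (AllN.piSet S))
    (s : ι → Fin (n + 1) → ℝ) (hs : 0 < volume.real (Gen.zon s)) :
    c * kappa (n + 1) ^ ((n + 1 : ℝ)⁻¹) * volume.real (Gen.zon s) ^ n ≤
      volume.real (Gen.zon (Gen.piGen s)) := by
  obtain ⟨T, hT, hiso⟩ := exists_position (Gen.piGen s) fun u hu => by
    rw [← Gen.pA_zon]
    exact Gen.pA_pos (Gen.zon_body s hs) hu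
  set T' : (Fin (n + 1) → ℝ) →ₗ[ℝ] (Fin (n + 1) → ℝ) := T.toLinearMap with hT'
  have hinv : ∀ y, Gen.adj T' (Gen.coadj T y) = y := fun y => by
    refine dotProduct_eq _ _ fun x => ?_
    rw [Gen.adj_dot]
    exact Gen.coadj_dot_map T y x
  set T₁ : (Fin (n + 1) → ℝ) ≃ₗ[ℝ] (Fin (n + 1) → ℝ) :=
    LinearEquiv.ofLinearMap (Gen.coadj T) (Gen.adj T') (LinearMap.ext (Gen.coadj_adj T))
      (LinearMap.ext hinv) with hT₁
  set d := LinearMap.det T₁.toLinearMap with hd
  have hd1 : |d| = 1 := by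
    rw [hd, show T₁.toLinearMap = Gen.coadj T from rfl, Gen.det_coadj, abs_inv, hT, inv_one]
  have hco : ∀ y, Gen.coadj T₁ y = T y := fun y => by
    refine dotProduct_eq _ _ fun x => ?_
    rw [Gen.coadj, Gen.adj_dot]
    change y ⬝ᵥ Gen.adj T' x = T y ⬝ᵥ x
    rw [dotProduct_comm, Gen.adj_dot, dotProduct_comm]
    rfl
  set s' := fun i => T₁ (s i) with hs'
  have hpi : ∀ f, Gen.piGen s' f = d • T (Gen.piGen s f) := fun f => by
    rw [Gen.piGen_map]
    simp [hco, d]
  have hsv : volume.real (Gen.zon s') = volume.real (Gen.zon s) := by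
    rw [show Gen.zon s' = T₁.toLinearMap '' Gen.zon s from (Gen.zon_map s T₁.toLinearMap).symm,
      Gen.vol_map, ← hd, hd1, one_mul]
  have h := zon_step_iso hn hc hP s' (hsv.symm ▸ hs) fun x => by
    simp only [hpi, en_smul, hd1, one_mul, smul_dotProduct, smul_eq_mul, mul_pow]
    rw [← sq_abs d, hd1, one_pow]
    simpa using hiso x
  rwa [hsv, Gen.vol_piGen_map, ← hd, hd1, one_pow, one_mul] at h

end Vale.Agent.P237.Every
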