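import Vale.Agent.P237.AllN.Planar
import Vale.Agent.P237.Gen.Proj
import Vale.Agent.P237.Every.Body
import Vale.Agent.P237.Every.Zonotope
import Vale.Agent.P237.Every.Constants

/-!
A lower bound for the volume of the projection body in every dimension.
-/

open MeasureTheory Set
open scoped RealInnerProductSpace

namespace Vale.Agent.P237.Every

open Vale.Agent.P237

noncomputable section

/-- Euclidean space of dimension `n`. -/
abbrev En (n : ℕ) : Type := EuclideanSpace ℝ (Fin n)

/-- The hyperplane through the origin orthogonal to `u`. -/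
abbrev perpSpace {n : ℕ} (u : En n) : Submodule ℝ (En n) := (ℝ ∙ u)ᗮ

/-- The orthogonal projection onto the hyperplane orthogonal to `u`. -/
def orthProj {n : ℕ} (u : En n) : En n → perpSpace u :=
  fun x => Submodule.orthogonalProjectionOnto (perpSpace u) x

/-- The volume in the hyperplane orthogonal to `u`. -/
def perpVol {n : ℕ} (u : En n) (A : Set (perpSpace u)) : ℝ := volume.real A

/-- The projection body: `h(u)` is the volume of the orthogonal projection of `K` along `u`. -/
def projBody {n : ℕ} (K : Set (En n)) : Set (En n) :=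
  {y | ∀ u : En n, ‖u‖ = 1 → ⟪u, y⟫ ≤ perpVol u (orthProj u '' K)}

theorem cst_mul_le_piSet : ∀ (k : ℕ) (S : Set (Fin (k + 2) → ℝ)), IsCompact S → Convex ℝ S →
    cst k * volume.real S ^ (k + 1) ≤ volume.real (AllN.piSet S)
  | 0 => fun _ hS hc => AllN.four_mul_le_piSet hS hc
  | k + 1 => fun S hS hc => by
    refine piSet_le_of_zon (n := k + 2) (by omega) (cst_pos (k + 1)).le ?_ hS hc
    intro ι _ s hs
    have h := zon_step (n := k + 2) (by omega) (cst_pos k).le (cst_mul_le_piSet k) s hs
    have e : ((k + 2 : ℕ) : ℝ) + 1 = ((k + 3 : ℕ) : ℝ) := by push_cast; ring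
    rw [e] at h
    exact h

/-- The bound for the projection body in Euclidean space. -/
theorem cst_mul_le_projBody {k : ℕ} {K : Set (EuclideanSpace ℝ (Fin (k + 2)))}
    (hc : Convex ℝ K) (hk : IsCompact K) :
    cst k * volume.real K ^ (k + 1) ≤
      volume.real (projBody K) := by
  set S : Set (Fin (k + 2) → ℝ) := WithLp.ofLp '' K with hSdef
  have hS : IsCompact S := hk.image (PiLp.continuous_ofLp 2 _)
  have hSc : Convex ℝ S :=
    hc.linear_image (WithLp.linearEquiv 2 ℝ (Fin (k + 2) → ℝ)).toLinearMap
  have hvK : volume.real S = volume.real K := by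
    have e : K = WithLp.ofLp ⁻¹' S := (preimage_image_eq K (WithLp.ofLp_injective 2)).symm
    conv_rhs => rw [e]
    rw [measureReal_def, measureReal_def,
      (PiLp.volume_preserving_ofLp (Fin (k + 2))).measure_preimage
        hS.measurableSet.nullMeasurableSet]
  set Q := AllN.piSet S with hQ
  have hQm : MeasurableSet Q := (AllN.isCompact_sub (AllN.pA S)).measurableSet
  have hP : projBody K = WithLp.ofLp ⁻¹' Q := by
    ext y
    refine ⟨fun hy u => ?_, fun hy u hu => ?_⟩
    · rcases eq_or_ne u 0 with rfl | hu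
      · simp [AllN.pA_zero]
      · set v : EuclideanSpace ℝ (Fin (k + 2)) := WithLp.toLp 2 u with hv
        have hn : 0 < ‖v‖ := norm_pos_iff.2 fun h => hu (congrArg WithLp.ofLp h)
        have h1 : ‖(‖v‖⁻¹ • v)‖ = 1 := by simp [norm_smul, hn.ne']
        have h2 := hy _ h1
        unfold perpVol orthProj perpSpace En at h2
        rw [← Gen.pA_eq_proj hc hk h1, ← AllN.pA_eq_gen, WithLp.ofLp_smul, ← hSdef,
          AllN.pA_smul hS hSc (inv_nonneg.2 hn.le), ← WithLp.toLp_ofLp 2 y,
          real_inner_smul_left] at h2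
        have h3 := le_of_mul_le_mul_left h2 (inv_pos.2 hn)
        rwa [hv, inner_toLp_eq] at h3
    · unfold perpVol orthProj perpSpace En
      have h := hy (WithLp.ofLp u)
      rw [← inner_toLp_eq, WithLp.toLp_ofLp, WithLp.toLp_ofLp, AllN.pA_eq_gen,
        Gen.pA_eq_proj hc hk hu] at h
      exact h
  rw [hP, measureReal_def (s := WithLp.ofLp ⁻¹' Q),
    (PiLp.volume_preserving_ofLp (Fin (k + 2))).measure_preimage hQm.nullMeasurableSet,
    ← measureReal_def, ← hvK]
  exact cst_mul_le_piSet k S hS hSc

/-- Petty's conjectured bound up to `exp (-O(log² n))`. -/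
theorem petty_mul_exp_le_projBody {k : ℕ} {K : Set (EuclideanSpace ℝ (Fin (k + 2)))}
    (hc : Convex ℝ K) (hk : IsCompact K) :
    kappa (k + 1) ^ (k + 2) / kappa (k + 2) ^ k *
        Real.exp (-1 - (Real.log ((k : ℝ) + 3) + 3) ^ 2 / 2) * volume.real K ^ (k + 1) ≤
      volume.real (projBody K) :=
  (mul_le_mul_of_nonneg_right (petty_mul_exp_le_cst k) (pow_nonneg measureReal_nonneg _)).trans
    (cst_mul_le_projBody hc hk)

end

end Vale.Agent.P237.Every
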