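import Vale.Agent.P237.Every.Defs
import Vale.Agent.P237.Gen.Defs

/-!
The position in which a finite family of vectors is isotropic for its lengths.
-/

open MeasureTheory Set Matrix

namespace Vale.Agent.P237.Every

open Vale.Agent.P237

variable {n : ℕ} {ι : Type} [Fintype ι]

theorem exists_position (g : ι → Fin (n + 1) → ℝ) (h : ∀ u ≠ 0, 0 < Gen.supp g u) :
    ∃ T : (Fin (n + 1) → ℝ) ≃ₗ[ℝ] (Fin (n + 1) → ℝ),
      |LinearMap.det (T : (Fin (n + 1) → ℝ) →ₗ[ℝ] (Fin (n + 1) → ℝ))| = 1 ∧
      ∀ x, ∑ i, (T (g i) ⬝ᵥ x) ^ 2 / en (T (g i)) =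
        (∑ i, en (T (g i))) / (n + 1) * (x ⬝ᵥ x) := by
  classical
  -- the ambient facts
  have hc : Continuous (Gen.supp g) := by unfold Gen.supp dotProduct; fun_prop
  obtain ⟨w, hw, hmin⟩ := (isCompact_sphere (0 : Fin (n + 1) → ℝ) 1).exists_isMinOn
    (NormedSpace.sphere_nonempty.2 zero_le_one) hc.continuousOn
  have hw0 : w ≠ 0 := by intro h0; simp [h0] at hw
  set δ := Gen.supp g w with hδ
  have hδ0 : 0 < δ := h w hw0
  have hlow : ∀ u, δ * ‖u‖ ≤ Gen.supp g u := by
    intro u
    rcases eq_or_ne u 0 with rfl | hu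
    · simp [Gen.supp]
    have hn : 0 < ‖u‖ := norm_pos_iff.2 hu
    have hm : δ ≤ Gen.supp g (‖u‖⁻¹ • u) := hmin (by simp [norm_smul, hn.ne'])
    have hs : Gen.supp g (‖u‖⁻¹ • u) = ‖u‖⁻¹ * Gen.supp g u := by
      simp [Gen.supp, smul_dotProduct, abs_mul, Finset.mul_sum]
    rwa [hs, le_inv_mul_iff₀ hn, mul_comm] at hm
  -- the total length and its minimiser
  let F : (Fin (n + 1) → Fin (n + 1) → ℝ) → ℝ := fun M => ∑ i, en ((Matrix.of M) *ᵥ g i)
  have hFc : Continuous F := by
    simp only [F, en, Matrix.mulVec, dotProduct]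
    fun_prop
  have hcoord : ∀ (v : Fin (n + 1) → ℝ) (j : Fin (n + 1)), |v j| ≤ en v := by
    intro v j
    refine le_trans (le_of_eq (Real.sqrt_sq_eq_abs (v j)).symm) (Real.sqrt_le_sqrt ?_)
    rw [sq]
    exact Finset.single_le_sum (f := fun i => v i * v i) (fun i _ => mul_self_nonneg _)
      (Finset.mem_univ j)
  have hrow : ∀ M j, δ * ‖M j‖ ≤ F M := fun M j =>
    (hlow (M j)).trans (Finset.sum_le_sum fun i _ => by
      simpa [Matrix.mulVec, Gen.supp] using hcoord (Matrix.of M *ᵥ g i) j)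
  let E : Fin (n + 1) → Fin (n + 1) → ℝ := fun i j => if i = j then 1 else 0
  have hE : Matrix.of E = 1 := by ext i j; simp [E, Matrix.one_apply]
  set K : Set (Fin (n + 1) → Fin (n + 1) → ℝ) :=
    (Set.pi univ fun _ => Metric.closedBall 0 (F E / δ)) ∩ {M | (Matrix.of M).det = 1} with hK
  have hdetc : Continuous fun M : Fin (n + 1) → Fin (n + 1) → ℝ => (Matrix.of M).det :=
    continuous_id.matrix_det
  have hKc : IsCompact K := (isCompact_univ_pi fun _ => isCompact_closedBall _ _).inter_right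
    (isClosed_eq hdetc continuous_const)
  have hEK : E ∈ K := by
    refine ⟨fun j _ => ?_, by simp [hE]⟩
    rw [Metric.mem_closedBall, dist_zero_right, le_div_iff₀ hδ0, mul_comm]
    exact hrow E j
  obtain ⟨M0, hM0, hM0min⟩ := hKc.exists_isMinOn ⟨E, hEK⟩ hFc.continuousOn
  have hall : ∀ M, (Matrix.of M).det = 1 → F M0 ≤ F M := by
    intro M hM
    rcases le_or_gt (F M) (F E) with h1 | h1
    · refine hM0min ⟨fun j _ => ?_, hM⟩
      rw [Metric.mem_closedBall, dist_zero_right, le_div_iff₀ hδ0, mul_comm]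
      exact (hrow M j).trans h1
    · exact (hM0min hEK).trans h1.le
  set A0 : Matrix (Fin (n + 1)) (Fin (n + 1)) ℝ := Matrix.of M0 with hA0
  have hdet0 : A0.det = 1 := hM0.2
  have hunit : LinearMap.det (Matrix.toLin' A0) ≠ 0 := by simp [LinearMap.det_toLin', hdet0]
  refine ⟨LinearMap.equivOfDetNeZero (Matrix.toLin' A0) hunit, ?_, ?_⟩
  · simp [LinearMap.equivOfDetNeZero, LinearMap.det_toLin', hdet0]
  intro x
  have hT : ∀ i, LinearMap.equivOfDetNeZero (Matrix.toLin' A0) hunit (g i) = A0 *ᵥ g i :=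
    fun i => rfl
  simp only [hT]
  set v : ι → Fin (n + 1) → ℝ := fun i => A0 *ᵥ g i with hv
  set q := x ⬝ᵥ x with hq
  set F0 := ∑ i, en (v i) with hF0
  have hF0' : F M0 = F0 := rfl
  let a : ι → ℝ := fun i => v i ⬝ᵥ x
  let φ : ℝ → ℝ := fun t =>
    (∑ i, en (v i + (t * a i) • x)) - F0 * (1 + t * q) ^ (((n : ℝ) + 1)⁻¹)
  have hφ0 : φ 0 = 0 := by simp [φ, F0]
  have hnear : ∀ᶠ t in nhds (0 : ℝ), 0 ≤ φ t := by
    have hev : ∀ᶠ t in nhds (0 : ℝ), 0 < 1 + t * q :=
      (Continuous.tendsto (by fun_prop : Continuous fun t : ℝ => 1 + t * q) 0).eventually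
        (eventually_gt_nhds (by norm_num))
    filter_upwards [hev] with t ht
    set c := 1 + t * q with hcd
    set r := c ^ (((n : ℝ) + 1)⁻¹) with hr
    have hr0 : 0 < r := Real.rpow_pos_of_pos ht _
    set B : Matrix (Fin (n + 1)) (Fin (n + 1)) ℝ :=
      1 + Matrix.replicateCol Unit (t • x) * Matrix.replicateRow Unit x with hB
    have hBdet : B.det = c := by
      rw [hB, Matrix.det_one_add_replicateCol_mul_replicateRow, dotProduct_smul, smul_eq_mul]
    have hBv : ∀ i, B *ᵥ v i = v i + (t * a i) • x := by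
      intro i
      rw [hB, Matrix.add_mulVec, Matrix.one_mulVec]
      congr 1
      funext j
      simp only [Matrix.mulVec, Matrix.mul_apply, Matrix.replicateCol_apply,
        Matrix.replicateRow_apply, dotProduct, Fintype.univ_unit, Finset.sum_singleton,
        Pi.smul_apply, smul_eq_mul, a, Finset.mul_sum, Finset.sum_mul]
      exact Finset.sum_congr rfl fun k _ => by ring
    have hMdet : (r⁻¹ • (B * A0)).det = 1 := by
      rw [Matrix.det_smul, Matrix.det_mul, hBdet, hdet0, Fintype.card_fin, mul_one, inv_pow, hr,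
        show ((n : ℝ) + 1) = ((n + 1 : ℕ) : ℝ) by push_cast; ring,
        Real.rpow_inv_natCast_pow ht.le (Nat.succ_ne_zero n), inv_mul_cancel₀ ht.ne']
    have h1 := hall (fun i j => (r⁻¹ • (B * A0)) i j) hMdet
    have h2 : F (fun i j => (r⁻¹ • (B * A0)) i j) = r⁻¹ * ∑ i, en (v i + (t * a i) • x) := by
      rw [Finset.mul_sum]
      refine Finset.sum_congr rfl fun i _ => ?_
      have e : (Matrix.of fun i j => (r⁻¹ • (B * A0)) i j) = r⁻¹ • (B * A0) := rfl
      rw [e, Matrix.smul_mulVec, ← Matrix.mulVec_mulVec, hBv, en, en, smul_dotProduct,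
        dotProduct_smul, smul_eq_mul, smul_eq_mul, ← mul_assoc, Real.sqrt_mul (by positivity),
        Real.sqrt_mul_self (inv_nonneg.2 hr0.le)]
    rw [hF0', h2, le_inv_mul_iff₀ hr0, mul_comm] at h1
    simp only [φ]
    linarith
  have hder : HasDerivAt φ ((∑ i, a i ^ 2 / en (v i)) - F0 * (q * ((n : ℝ) + 1)⁻¹)) 0 := by
    refine HasDerivAt.sub (HasDerivAt.fun_sum fun i _ => ?_) (HasDerivAt.const_mul F0 ?_)
    · rcases eq_or_ne (v i ⬝ᵥ v i) 0 with h0 | h0
      · have hv0 : v i = 0 := dotProduct_self_eq_zero.1 h0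
        have ha : a i = 0 := by simp [a, hv0]
        simp only [ha, mul_zero, zero_smul, add_zero, ne_eq, OfNat.ofNat_ne_zero,
          not_false_eq_true, zero_pow, zero_div]
        exact hasDerivAt_const _ _
      · have e : (fun t : ℝ => en (v i + (t * a i) • x)) = fun t : ℝ =>
            Real.sqrt (v i ⬝ᵥ v i + 2 * (t * a i) * a i + (t * a i) * ((t * a i) * q)) := by
          funext t
          simp only [en, a, hq, add_dotProduct, dotProduct_add, smul_dotProduct, dotProduct_smul,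
            smul_eq_mul, dotProduct_comm x (v i)]
          congr 1
          ring
        rw [e]
        have hd : HasDerivAt
            (fun t : ℝ => v i ⬝ᵥ v i + 2 * (t * a i) * a i + (t * a i) * ((t * a i) * q))
            (2 * a i ^ 2) 0 := by
          have h1 : HasDerivAt (fun t : ℝ => t * a i) (a i) 0 := by
            simpa using (hasDerivAt_id (0 : ℝ)).mul_const (a i)
          have h2 := ((h1.const_mul 2).mul_const (a i)).const_add (v i ⬝ᵥ v i)
          have h3 := h1.mul (h1.mul_const q)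
          refine (h2.add h3).congr_deriv ?_
          ring
        refine (hd.sqrt (by simpa using h0)).congr_deriv ?_
        simp only [zero_mul, mul_zero, add_zero, en]
        field_simp
    · have h1 : HasDerivAt (fun t : ℝ => 1 + t * q) q 0 := by
        simpa using ((hasDerivAt_id (0 : ℝ)).mul_const q).const_add (1 : ℝ)
      refine (h1.rpow_const (Or.inl (by norm_num))).congr_deriv ?_
      simp
  have h0 := IsLocalMin.hasDerivAt_eq_zero
    (show IsLocalMin φ 0 by simpa [IsLocalMin, IsMinFilter, hφ0] using hnear) hder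
  show ∑ i, a i ^ 2 / en (v i) = F0 / (n + 1) * q
  rw [sub_eq_zero] at h0
  rw [h0]
  ring

end Vale.Agent.P237.Every
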